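import Crest.Agent.X261.GrL.Flat
import Crest.Agent.X261.Gr.AttA
import Crest.Agent.X261.Cov.U
import Crest.Agent.X261.BT.EnvB
import Crest.Agent.X261.Pole2.Mod

/-!
# Row 261, package GrL (helper5), file `Lim`: decreasing limits with a volume bound

* `lim φ` : the decreasing limit of the quasi-psh functions `φ s ≤ 0`; `Zs B φ t` : the locus where
  `e^{-t lim φ}` is not locally integrable;
* `Fam.qw`, `Fam.lq`, `Fam.an` : the limit is quasi-psh, the locus is analytic;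
* `Fam.cpt` : the locus is compact (uniform balls, Skoda, the volume bound);
* `off` : logarithmic lower bound away from the locus;
* `fam_env` : envelopes of a decreasing family of obstacles.
-/

set_option autoImplicit false
set_option linter.unusedSectionVars false

open Set Filter Topology Metric MeasureTheory Module
open scoped ENNReal ContDiff

noncomputable section

namespace Crest.Agent.X261.GrL

open Crest.Agent.R275.Geo
open Crest.Agent.R273.Hess_333 Crest.Agent.R273.HessB_333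
open Crest.Agent.R281.Kp_487 (KP pot wt_contDiffAt)
open Crest.Agent.R257.HoB_843 (lvE)
open Crest.Agent.R257.Glue2_101 (lvE_add lvE_const_mul)
open Crest.Agent.X261.Psh Crest.Agent.X261.Ans Crest.Agent.X261.BT Crest.Agent.X261.Cov.U

variable {n : ℕ} {M : Type} [TopologicalSpace M] {B : Atl n M} {H : KP B}

/-- the decreasing limit -/
def lim (φ : ℕ → M → ℝ) (x : M) : EReal := ⨅ s, (φ s x : EReal)

/-- the locus where `e^{-t u}` is not locally integrable -/
def Zu (B : Atl n M) (u : M → EReal) (t : ℝ) : Set M :=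
  HNI (HA.of B) volume fun x => (t : EReal) * u x

/-- the locus where `e^{-t lim φ}` is not locally integrable -/
abbrev Zs (B : Atl n M) (φ : ℕ → M → ℝ) (t : ℝ) : Set M := Zu B (lim φ) t

variable {φ : ℕ → M → ℝ} {u : M → EReal} {t : ℝ}

theorem lim_le (φ : ℕ → M → ℝ) (s : ℕ) (x : M) : lim φ x ≤ φ s x := iInf_le _ s

theorem lim_lt_iff {x : M} {c : ℝ} : lim φ x < c ↔ ∃ s, φ s x < c := by
  simp only [lim, iInf_lt_iff, EReal.coe_lt_coe_iff]

theorem isClosed_Zu : IsClosed (Zu B u t) := isClosed_HNI _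

theorem mem_Zu {i : B.ι} {x : M} (hi : x ∈ (B.e i).source) :
    x ∈ Zu B u t ↔ B.e i x ∈ NI volume fun z => (t : EReal) * u ((B.e i).symm z) :=
  mem_HNI (A := HA.of B) volume (i := i) hi

theorem Zu_mono {t' : ℝ} (h0 : ∀ x, u x ≤ 0) (ht : 0 ≤ t) (h : t ≤ t') : Zu B u t ⊆ Zu B u t' :=
  fun _ hx => HNI_mul_mono volume (C := 0) ht h (Eventually.of_forall h0) hx

theorem iInf_add (f : ℕ → ℝ) (a : ℝ) :
    ⨅ s, ((a + f s : ℝ) : EReal) = (⨅ s, (f s : EReal)) + a := by
  refine le_antisymm ?_ (le_iInf fun s => ?_)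
  · rw [Gr.Att.le_add_coe_iff]
    refine le_iInf fun s => (add_le_coe (iInf_le _ s) le_rfl).trans (le_of_eq ?_)
    congr 1; ring
  · rw [add_comm a]
    exact add_le_coe (iInf_le _ s) le_rfl

theorem qw_lim (h : ∀ s, QP H univ (φ s)) (ha : ∀ x, Antitone fun s => φ s x) :
    Gr.Att.QW (HA.of B) H.u (lim φ) := fun i =>
  (IsPsh.iInf_antitone (D := (B.e i).target) (f := fun s z => (pot H (φ s) i z : EReal))
    (fun s => Env.isPsh (B.e i).open_target (chU_univ (A := B) i ▸ (h s).cp i))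
    fun _ _ _ _ hs => EReal.coe_le_coe_iff.2 (add_le_add_right (ha _ hs) _)).congr
      fun _ _ => iInf_add _ _

theorem lq_of_qw (h : Gr.Att.QW (HA.of B) H.u u) (x : M) : LQ (HA.of B) u x := by
  obtain ⟨i, hi⟩ := B.cover x
  exact lq_of_add (A := HA.of B) (i := i) hi (h i)
    ((B.e i).open_target.mem_nhds ((B.e i).map_source hi))
    (wt_contDiffAt H i ((B.e i).map_source hi)).continuousAt

theorem an_Zu (h : Gr.Att.QW (HA.of B) H.u u) (ht : 0 ≤ t) : (HA.of B).An univ (Zu B u t) :=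
  fun x _ => ((lq_of_qw h x).smul ht).anAt volume

/-- a uniform ball around a point of the locus lies in `{u < 0}` -/
theorem exists_ball (S : UB H) (ht : 0 ≤ t) : ∃ δ : ℝ, 0 < δ ∧ δ ≤ S.R ∧ ∀ u : M → EReal,
    Gr.Att.QW (HA.of B) H.u u → (∀ x, u x ≤ 0) → ∀ j, ∀ p ∈ S.W j (7 * S.R), p ∈ Zu B u t →
      ∀ y ∈ cb B (S.ch j) (B.e (S.ch j) p) δ, u y < 0 := by
  obtain ⟨δ, h1, h2, h3⟩ := exists_notNI (volume : Measure (Cn n)) S.C ht S.R_pos
  refine ⟨δ, h1, h2, fun u hu h0 j p hp hZ y hy => lt_of_not_ge fun hy0 => ?_⟩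
  have hB := S.ball_sub hp (d := S.R) (by linarith)
  have hb : ∀ z ∈ closedBall (B.e (S.ch j) p) S.R,
      Gr.Att.cw (HA.of B) H.u u (S.ch j) z ≤ u ((B.e (S.ch j)).symm z) + S.C := fun z hz =>
    add_le_add_right (EReal.coe_le_coe_iff.2 (abs_le.1 (S.bd j z (hB hz))).2) _
  refine h3 _ _ _ (B.e (S.ch j)).open_target (hu (S.ch j)) (hB.trans (S.sub j))
    (fun z hz => (hb z hz).trans (by simpa using add_le_add_left (h0 _) (S.C : EReal)))
    ⟨B.e (S.ch j) y, ball_subset_closedBall hy.2, ?_⟩ (NI_of_le (C := t * S.C)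
      (mem_of_superset (closedBall_mem_nhds _ S.R_pos) fun z hz =>
        Wand.mul_le_mul_add ht (hb z hz)) ((mem_Zu hp.1).1 hZ))
  have h4 := (abs_le.1 (S.bd j _ (hB (closedBall_subset_closedBall h2
    (ball_subset_closedBall hy.2))))).1
  have h5 : (0 : EReal) ≤ u ((B.e (S.ch j)).symm (B.e (S.ch j) y)) := by
    rwa [(B.e _).left_inv hy.1]
  exact le_trans (by simp) (add_le_add h5 (EReal.coe_le_coe_iff.2 h4))

/-- logarithmic lower bound away from the locus -/
theorem off [T2Space M] (S : UB H) (ht : 0 < t) {K : Set M} (hK : IsCompact K)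
    (hd : Disjoint K (Zu B u t)) : ∃ C d₀ : ℝ, 0 < d₀ ∧ ∀ j, ∀ q ∈ K, q ∈ S.W j (7 * S.R) →
      ∀ d, 0 < d → d ≤ d₀ → ∃ y ∈ cb B (S.ch j) (B.e (S.ch j) q) d,
        ((2 * n / t * Real.log d - C : ℝ) : EReal) ≤ u y := by
  have key : ∀ j, ∃ (C d₀ : ℝ), 0 < d₀ ∧ ∀ q ∈ K, q ∈ S.W j (7 * S.R) →
      ∀ d, 0 < d → d ≤ d₀ → ∃ y ∈ cb B (S.ch j) (B.e (S.ch j) q) d,
        ((2 * n / t * Real.log d - C : ℝ) : EReal) ≤ u y := by
    intro j
    set w : Cn n → EReal := fun z => (t : EReal) * u ((B.e (S.ch j)).symm z) with hw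
    have hT : IsCompact (B.e (S.ch j) '' (K ∩ S.W j (7 * S.R))) :=
      Env.cpt_im (hK.inter (S.isCompact_W j (by linarith [S.R_pos]))) fun _ hx => hx.2.1
    obtain ⟨r, hr, h1⟩ := hT.exists_cthickening_subset_open
      ((B.e (S.ch j)).open_target.inter (isClosed_NI (μ := volume) (u := w)).isOpen_compl) (by
        rintro _ ⟨q, hq, rfl⟩
        exact ⟨(B.e _).map_source hq.2.1, fun h =>
          Set.disjoint_left.1 hd hq.1 ((mem_Zu hq.2.1).2 h)⟩)
    obtain ⟨C, hC⟩ := exists_ge_of_lint (volume : Measure (Cn n)) ht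
      (lint_lt_top_of_NW (hT.cthickening (r := r)) fun z hz => (h1 hz).2).ne
    refine ⟨C, r, hr, fun q h2 h3 d h4 h5 => ?_⟩
    have h6 : ball (B.e (S.ch j) q) d ⊆ cthickening r (B.e (S.ch j) '' (K ∩ S.W j (7 * S.R))) :=
      ball_subset_closedBall.trans ((closedBall_subset_closedBall h5).trans
        (closedBall_subset_cthickening (mem_image_of_mem _ (mem_inter h2 h3)) r))
    obtain ⟨y, hy, h7⟩ := hC (fun z => u ((B.e (S.ch j)).symm z)) _ d h4 (lintegral_mono_set h6)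
    refine ⟨_, (symm_mem_cb (h1 (h6 hy)).1).2 hy, ?_⟩
    simpa only [finrank_euclideanSpace, Fintype.card_fin] using h7
  choose C d₀ h1 h2 using key
  have hf := (S.lf K hK).to_subtype
  obtain ⟨C', -, h3⟩ := exists_ge fun j : {j | (S.W j (8 * S.R) ∩ K).Nonempty} => C j
  obtain ⟨d', h4, h5⟩ := exists_pos_le fun j : {j | (S.W j (8 * S.R) ∩ K).Nonempty} => h1 j
  refine ⟨C', d', h4, fun j q hq hj d hd0 hd' => ?_⟩
  have hj' : (S.W j (8 * S.R) ∩ K).Nonempty := ⟨q, ccb_mono (by linarith [S.R_pos]) hj, hq⟩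
  obtain ⟨y, hy, h6⟩ := h2 j q hq hj d hd0 (hd'.trans (h5 ⟨j, hj'⟩))
  exact ⟨y, hy, (EReal.coe_le_coe_iff.2 (by linarith [h3 ⟨j, hj'⟩])).trans h6⟩

variable [T2Space M] [MeasurableSpace M] [BorelSpace M] [Countable B.ι]

/-- uniform lower bound for the volume of small balls -/
theorem exists_vol_le (hH : H.Pos) (S : UB H) {δ : ℝ} (hδ : 0 < δ) (hR : δ ≤ S.R) :
    ∃ v : ℝ≥0∞, 0 < v ∧ ∀ j, ∀ p ∈ S.W j (7 * S.R),
      v ≤ MA H 0 (cb B (S.ch j) (B.e (S.ch j) p) δ) := by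
  have hm := S.m_pos
  refine ⟨ENNReal.ofReal (n.factorial * S.m ^ n) * volume (ball (0 : Cn n) δ),
    ENNReal.mul_pos (ENNReal.ofReal_pos.2 (by positivity)).ne' (measure_ball_pos _ _ hδ).ne',
    fun j p hp => ?_⟩
  have hB := ball_subset_closedBall.trans (S.ball_sub hp (d := δ) (by linarith))
  have hT := hB.trans (S.sub j)
  set i := S.ch j
  set z := B.e i p
  have q0 : QP H univ 0 := QP.const (pos_semi hH) isOpen_univ 0
  have e1 : chU B (cb B i z δ) i = ball z δ :=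
    Set.ext fun w => ⟨fun h => (symm_mem_cb h.1).1 h.2, fun h => ⟨hT h, (symm_mem_cb (hT h)).2 h⟩⟩
  have s1 : ContDiff ℝ ∞ fun x : Cn n => ‖x‖ ^ 2 := contDiff_norm_sq ℝ
  have c1 : CP (ball z δ) fun x : Cn n => S.m * ‖x‖ ^ 2 :=
    ((sp_nsq hm.le).mono (subset_univ _)).cp isOpen_ball
  have c2 : CP (ball z δ) fun x : Cn n => H.wt i x + -S.m * ‖x‖ ^ 2 :=
    cp_of_smooth isOpen_ball fun w hw => by
      have a1 := wt_contDiffAt H i (hT hw)
      have a2 : ContDiffAt ℝ ∞ (fun x : Cn n => -S.m * ‖x‖ ^ 2) w :=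
        (contDiff_const.mul s1).contDiffAt
      refine ⟨a1.add a2, (psd_iff (a1.add a2)).2 fun v => ?_⟩
      rw [lvE_add a1 a2, lvE_const_mul s1.contDiffAt, lvE_nsq]
      linarith [S.low j w (hB hw) v]
  have h1 := ma_le_all (u := fun _ : Fin n => fun x : Cn n => S.m * ‖x‖ ^ 2) isOpen_ball
    (fun _ => c1) (fun _ => c2) (ball z δ)
  have e2 : (fun (_ : Fin n) (x : Cn n) => S.m * ‖x‖ ^ 2 + (H.wt i x + -S.m * ‖x‖ ^ 2)) =
      fun _ => pot H 0 i := by
    funext _ x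
    simp only [pot_apply, Pi.zero_apply]; ring
  have e3 : ∀ x, mh (fun (_ : Fin n) (x : Cn n) => S.m * ‖x‖ ^ 2) x = n.factorial * S.m ^ n :=
    fun x => by
      rw [mh_same, hess_const_mul _ s1.contDiffAt, Pole2.hess_nsq]
      simp [-Complex.ofReal_pow, ← Complex.ofReal_pow]
  rw [e2, ma_smooth_eq isOpen_ball (fun _ => c1)
    (fun _ _ _ => (contDiff_const.mul s1).contDiffAt), withDensity_apply _ measurableSet_ball] at h1
  simp only [e3, lintegral_const, Measure.restrict_apply MeasurableSet.univ, univ_inter,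
    Measure.restrict_apply measurableSet_ball, inter_self] at h1
  rw [MA, MAo, MX_apply isOpen_univ (fun _ => q0) i isOpen_cb.measurableSet inter_subset_left, e1,
    ma_apply_sub (isOpen_chU isOpen_univ i) (fun _ => q0.cp i) isOpen_ball
      (by rwa [chU_univ]) Subset.rfl, ← Measure.addHaar_ball_center volume z]
  exact h1

/-- the locus of a quasi-psh function `≤ 0` which vanishes off a set of finite volume is compact -/
theorem cpt_Zu (hH : H.Pos) (S : UB H) (hu : Gr.Att.QW (HA.of B) H.u u) (h0 : ∀ x, u x ≤ 0)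
    (hV : MA H 0 {x | u x < 0} < ⊤) (ht : 0 ≤ t) : IsCompact (Zu B u t) := by
  obtain ⟨δ, h1, h2, h3⟩ := exists_ball S ht
  obtain ⟨v, hv, h4⟩ := exists_vol_le hH S h1 h2
  have hR := S.R_pos
  refine S.isCompact_of isClosed_Zu (Set.Finite.of_finite_fibers S.col (toFinite _) fun κ _ => ?_)
  set T := {j | (S.V j S.R ∩ Zu B u t).Nonempty} ∩ S.col ⁻¹' {κ}
  choose p hp using fun j : T => (show (S.V j S.R ∩ Zu B u t).Nonempty from j.2.1)
  have hW : ∀ j : T, p j ∈ S.W j S.R := fun j => cb_sub_ccb (hp j).1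
  have hW' : ∀ j : T, p j ∈ S.W j (7 * S.R) := fun j => ccb_mono (by linarith) (hW j)
  have h5 : ∀ j : T, cb B (S.ch j) (B.e (S.ch j) (p j)) δ ⊆ S.W j (8 * S.R) := fun j =>
    cb_sub_ccb.trans ((S.ccb_sub (hW j)).trans (ccb_mono (by linarith)))
  have h6 := Measure.finite_const_le_meas_of_disjoint_iUnion (MA H 0) hv
    (As := fun j : T => cb B (S.ch j) (B.e (S.ch j) (p j)) δ) (fun _ => isOpen_cb.measurableSet)
    (fun j k hne => (S.disj j k (fun h => hne (Subtype.ext h))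
      ((show S.col j = κ from j.2.2).trans (show S.col k = κ from k.2.2).symm)).mono (h5 j) (h5 k))
    ((measure_mono (iUnion_subset fun j : T => h3 u hu h0 j _ (hW' j) (hp j).2)).trans_lt hV).ne
  have : Finite T := finite_univ_iff.1 (h6.subset fun j _ => h4 j _ (hW' j))
  exact toFinite T

/-- a decreasing family with a volume bound -/
structure Fam (H : KP B) (φ : ℕ → M → ℝ) : Prop where
  qp : ∀ s, QP H univ (φ s)
  le : ∀ s x, φ s x ≤ 0
  anti : ∀ x, Antitone fun s => φ s x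
  vol : ∃ V : ℝ≥0∞, V < ⊤ ∧ ∀ s, MA H 0 {x | φ s x < 0} ≤ V

namespace Fam

variable (h : Fam H φ)
include h

theorem qw : Gr.Att.QW (HA.of B) H.u (lim φ) := qw_lim h.qp h.anti

theorem psh (i : B.ι) :
    IsPsh (B.e i).target fun z => lim φ ((B.e i).symm z) + (H.wt i z : ℝ) := h.qw i

theorem lq (x : M) : LQ (HA.of B) (lim φ) x := lq_of_qw h.qw x

theorem nonpos (x : M) : lim φ x ≤ 0 :=
  (lim_le φ 0 x).trans (EReal.coe_le_coe_iff.2 (h.le 0 x))

theorem an (ht : 0 ≤ t) : (HA.of B).An univ (Zs B φ t) := an_Zu h.qw ht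

theorem vol_lt : MA H 0 {x | lim φ x < 0} < ⊤ := by
  obtain ⟨V, hV, h1⟩ := h.vol
  have e : {x | lim φ x < 0} = ⋃ s, {x | φ s x < 0} :=
    Set.ext fun x => (lim_lt_iff (c := 0)).trans (by simp)
  have hm : Monotone fun s => {x | φ s x < 0} := fun s s' hs x hx => (h.anti x hs).trans_lt hx
  rw [e, hm.measure_iUnion]
  exact (iSup_le h1).trans_lt hV

theorem cpt (hH : H.Pos) (S : UB H) (ht : 0 ≤ t) : IsCompact (Zs B φ t) :=
  cpt_Zu hH S h.qw h.nonpos h.vol_lt ht

end Fam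

/-- envelopes of a decreasing family of obstacles -/
theorem fam_env (hH : H.Pos) (hS : Slow H) {v : ℕ → M → ℝ} (hc : ∀ s, Continuous (v s))
    (hk : ∀ s, HasCompactSupport (v s)) (h0 : ∀ s x, v s x ≤ 0)
    (ha : ∀ x, Antitone fun s => v s x)
    (hV : ∃ V : ℝ≥0∞, V < ⊤ ∧ ∀ s, MA H 0 {x | env H (v s) x < 0} ≤ V) :
    Fam H (fun s => env H (v s)) ∧ ∀ s x, env H (v s) x ≤ v s x :=
  have ho := fun s => hS.obs0 (pos_semi hH) (hc s) (hk s)
  ⟨⟨fun s => (ho s).qp hH, fun s x => ((ho s).env_le (pos_semi hH) x).trans (h0 s x),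
    fun x _ s' hs => env_mono ((ho s').hasC (pos_semi hH)) (fun y => ha y hs) x, hV⟩,
    fun s => (ho s).env_le (pos_semi hH)⟩

end Crest.Agent.X261.GrL
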