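import Crest.Agent.X261.Psh.Sko71
import Crest.Agent.X261.Psh.Bom
import Crest.Agent.X261.Psh.Kis71

/-!
# Row 261, package GrL (helper5), file `Flat`: uniform forms of Skoda's theorem and its converse

* `exists_notNI` : one point with a bounded value close to `z` keeps `z` off the
  non-integrability locus of `t u`, with a radius that depends only on the bounds;
* `exists_ge_of_lint` : a bound for `∫ e^{-t u}` gives points with `u ≥ (2n/t) log d - C` in all
  small balls.
-/

set_option autoImplicit false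
set_option linter.unusedSectionVars false

open Set Filter Topology Metric MeasureTheory Module
open scoped ENNReal

noncomputable section

namespace Crest.Agent.X261.GrL

open Crest.Agent.X261.Psh Crest.Agent.X261.Psh.Kis

variable {E : Type*} [NormedAddCommGroup E] [NormedSpace ℂ E] [FiniteDimensional ℂ E]
  [MeasurableSpace E] [BorelSpace E] (μ : Measure E) [μ.IsAddHaarMeasure]

/-- uniform Skoda: a point with a bounded value near `z` -/
theorem exists_notNI {t ρ : ℝ} (C : ℝ) (ht : 0 ≤ t) (hρ : 0 < ρ) :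
    ∃ δ : ℝ, 0 < δ ∧ δ ≤ ρ ∧ ∀ (D : Set E) (u : E → EReal) (z : E), IsOpen D → IsPsh D u →
      closedBall z ρ ⊆ D → (∀ x ∈ closedBall z ρ, u x ≤ C) →
      (∃ y ∈ closedBall z δ, ((-C : ℝ) : EReal) ≤ u y) →
      z ∉ NI μ fun x => (t : EReal) * u x := by
  have : ProperSpace E := FiniteDimensional.proper ℂ E
  obtain ⟨θ, η, K, hθ, hθ1, hη, hK, H⟩ := Sk.skoda' μ
  set c : ℝ := η / (t + 1) with hc
  have hc0 : 0 < c := by positivity
  have hηc : η / c = t + 1 := by rw [hc]; field_simp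
  set l : ℝ := -Real.log θ with hl
  have hl0 : 0 ≤ l := neg_nonneg.2 (Real.log_nonpos hθ.le hθ1)
  set Λ : ℝ := l + 2 * |C| * l / c + 1 with hΛ
  have h1 : 0 ≤ 2 * |C| * l / c := by positivity
  have hΛ0 : 0 < Λ := by positivity
  set s1 : ℝ := Real.log ρ with hs1
  have e1 : Real.exp s1 = ρ := Real.exp_log hρ
  have hδρ : Real.exp (s1 - Λ) ≤ ρ := e1 ▸ Real.exp_le_exp.2 (by linarith)
  refine ⟨Real.exp (s1 - Λ), Real.exp_pos _, hδρ, fun D u z hD hu hB hC ⟨y0, hy0, h0⟩ => ?_⟩
  have hsub := closedBall_subset_closedBall (x := z) hδρ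
  obtain ⟨y, hy, hm⟩ := (hu.usc.mono (hsub.trans hB)).exists_isMaxOn ⟨y0, hy0⟩
    (isCompact_closedBall z _)
  have h2 : ((-C : ℝ) : EReal) ≤ u y := h0.trans (hm hy0)
  have h3 : u y ≤ C := hC y (hsub hy)
  obtain ⟨a, ha⟩ : ∃ a : ℝ, u y = a := ⟨_, (EReal.coe_toReal (h3.trans_lt (EReal.coe_lt_top C)).ne
    ((EReal.bot_lt_coe _).trans_le h2).ne').symm⟩
  rw [ha, EReal.coe_le_coe_iff] at h2 h3
  have hT : Tube {z} (Iic s1) fun x s => bsup u x (Real.exp s) :=
    tube_sup hD hu fun x hx s hs => by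
      rw [mem_singleton_iff.1 hx]
      exact (closedBall_subset_closedBall (e1 ▸ Real.exp_le_exp.2 hs)).trans hB
  have hq1 : l / Λ ≤ 1 := (div_le_one hΛ0).2 (by linarith)
  have h4 := hT.convex ordConnected_Iic (mem_singleton z) (s0 := s1 - Λ) (s1 := s1)
    (mem_Iic.2 (by linarith)) (mem_Iic.2 le_rfl) (a := a) (b := C)
    (bsup_le fun x hx => ha ▸ hm hx) (bsup_le fun x hx => hC x (e1 ▸ hx)) (p := 1 - l / Λ)
    (q := l / Λ) (by linarith) (by positivity) (by ring)
  have e2 : (1 - l / Λ) * (s1 - Λ) + l / Λ * s1 = s1 - Λ + l := by field_simp; ring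
  have h5 : (1 - l / Λ) * a + l / Λ * C ≤ a + c := by
    have a1 : l / Λ * (C - a) ≤ l / Λ * (2 * |C|) :=
      mul_le_mul_of_nonneg_left (by linarith [le_abs_self C]) (by positivity)
    have a2 : l / Λ * (2 * |C|) ≤ c := by
      rw [div_mul_eq_mul_div, div_le_iff₀ hΛ0]
      have : c * (2 * |C| * l / c) = 2 * |C| * l := by field_simp
      nlinarith
    linarith
  rw [e2] at h4
  set r : ℝ := Real.exp (s1 - Λ + l) with hr
  have e3 : θ * r = Real.exp (s1 - Λ) := by
    rw [hr, Real.exp_add, hl, Real.exp_neg, Real.exp_log hθ]; field_simp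
  have hrρ : r ≤ ρ := e1 ▸ Real.exp_le_exp.2 (by linarith)
  have h6 := H D u z r (a + c) c hD hu (Real.exp_pos _)
    ((closedBall_subset_closedBall hrρ).trans hB) hc0
    (fun x hx => (le_bsup u hx).trans (h4.trans (EReal.coe_le_coe_iff.2 h5)))
    ⟨y, e3 ▸ hy, by rw [ha, add_sub_cancel_right]⟩
  rw [hηc, e3] at h6
  refine mt (NI_mul_mono ht (by linarith : t ≤ t + 1)
    (mem_of_superset (closedBall_mem_nhds z hρ) hC)) (notMem_NI.2
      ⟨_, closedBall_mem_nhds z (Real.exp_pos _), h6.trans_lt ?_⟩)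
  exact ENNReal.mul_lt_top (ENNReal.mul_lt_top hK.lt_top measure_ball_lt_top) ENNReal.ofReal_lt_top

/-- the converse: a bound for the integral gives good points in all balls -/
theorem exists_ge_of_lint {t : ℝ} (ht : 0 < t) {I : ℝ≥0∞} (hI : I ≠ ⊤) :
    ∃ C : ℝ, ∀ (u : E → EReal) (z : E) (d : ℝ), 0 < d →
      ∫⁻ x in ball z d, EReal.exp (-((t : EReal) * u x)) ∂μ ≤ I →
      ∃ y ∈ ball z d, ((2 * finrank ℂ E / t * Real.log d - C : ℝ) : EReal) ≤ u y := by
  have : ProperSpace E := FiniteDimensional.proper ℂ E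
  have hm0 : μ (ball (0 : E) 1) ≠ 0 := (measure_ball_pos μ 0 one_pos).ne'
  have hm1 : μ (ball (0 : E) 1) ≠ ⊤ := measure_ball_lt_top.ne
  set m : ℝ := (μ (ball (0 : E) 1)).toReal with hm
  have hmp : 0 < m := ENNReal.toReal_pos hm0 hm1
  set J : ℝ := I.toReal + 1 with hJ
  have hJp : 0 < J := by positivity
  refine ⟨Real.log (J / m) / t, fun u z d hd h => ?_⟩
  by_contra hcon
  push Not at hcon
  set b : ℝ := 2 * finrank ℂ E / t * Real.log d - Real.log (J / m) / t with hb
  have h1 : ∀ x ∈ ball z d, ENNReal.ofReal (Real.exp (-(t * b))) ≤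
      EReal.exp (-((t : EReal) * u x)) := fun x hx => by
    rw [← EReal.exp_coe, EReal.exp_le_exp_iff, EReal.coe_neg, EReal.neg_le_neg_iff]
    exact coe_mul_le ht.le (hcon x hx).le
  have h2 : ENNReal.ofReal (Real.exp (-(t * b))) * μ (ball z d) ≤ I := by
    rw [← setLIntegral_const]
    exact (setLIntegral_mono' measurableSet_ball h1).trans h
  have hf : finrank ℝ E = 2 * finrank ℂ E := by
    rw [← Module.finrank_mul_finrank ℝ ℂ E, Complex.finrank_real_complex]
  have e1 : Real.exp (-(t * b)) * (d ^ finrank ℝ E * m) = J := by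
    have e2 : -(t * b) = Real.log (J / m) - (finrank ℝ E : ℕ) * Real.log d := by
      rw [hb, hf]; push_cast; field_simp; ring
    rw [e2, Real.exp_sub, Real.exp_log (by positivity), ← Real.log_pow,
      Real.exp_log (by positivity)]
    field_simp
  rw [Measure.addHaar_ball_of_pos μ z hd, ← ENNReal.ofReal_toReal hm1, ← hm,
    ← ENNReal.ofReal_mul (by positivity), ← ENNReal.ofReal_mul (by positivity), e1,
    ENNReal.ofReal_le_iff_le_toReal hI] at h2
  linarith

end Crest.Agent.X261.GrL
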