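import Crest.Agent.X261.GrL.Lim

/-!
# Row 261, package GrL (helper5), file `LimR`: the limit theorem for families indexed by `ℝ`
-/

set_option autoImplicit false
set_option linter.unusedSectionVars false

open Set Filter Topology Metric MeasureTheory

noncomputable section

namespace Crest.Agent.X261.GrL

open Crest.Agent.R275.Geo
open Crest.Agent.R281.Kp_487 (KP)
open Crest.Agent.X261.Ans Crest.Agent.X261.BT Crest.Agent.X261.Cov.U

variable {n : ℕ} {M : Type} [TopologicalSpace M] [T2Space M] [MeasurableSpace M] [BorelSpace M]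
  {B : Atl n M} [Countable B.ι] {H : KP B}

theorem lim_le_real {φ : ℝ → M → ℝ} (ha : ∀ x, Antitone fun s => φ s x) (s : ℝ) (x : M) :
    lim (fun k : ℕ => φ k) x ≤ φ s x :=
  (lim_le _ ⌈s⌉₊ x).trans (EReal.coe_le_coe_iff.2 (ha x (Nat.le_ceil s)))

/-- the text of `Fin.LimI` -/
theorem limI (hH : H.Pos) (S : UB H) (φ : ℝ → M → ℝ) (h1 : ∀ s, QP H univ (φ s))
    (h2 : ∀ s x, φ s x ≤ 0) (h3 : ∀ x, Antitone fun s => φ s x)
    (h4 : ∃ V : ENNReal, V < ⊤ ∧ ∀ s, MA H (fun _ => 0) {x | φ s x < 0} ≤ V) :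
    ∃ Z : Set M, IsCompact Z ∧ (HA.of B).An univ Z ∧ ∀ K : Set M, IsCompact K → Disjoint K Z →
      ∃ C d₀ : ℝ, 0 < d₀ ∧ ∀ j, ∀ q ∈ K, q ∈ S.W j (7 * S.R) → ∀ d, 0 < d → d ≤ d₀ →
        ∃ y ∈ cb B (S.ch j) (B.e (S.ch j) q) d, ∀ s, Real.log d - C ≤ φ s y := by
  have hF : Fam H fun k : ℕ => φ k :=
    ⟨fun _ => h1 _, fun _ => h2 _, fun x _ _ h => h3 x (Nat.cast_le.2 h),
      let ⟨V, a, b⟩ := h4; ⟨V, a, fun _ => b _⟩⟩
  have ht : (0 : ℝ) < 2 * n + 1 := by positivity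
  refine ⟨_, hF.cpt hH S ht.le, hF.an ht.le, fun K hK hd => ?_⟩
  obtain ⟨C, d₀, h5, h6⟩ := off S ht hK hd
  refine ⟨C, min d₀ 1, lt_min h5 one_pos, fun j q a b d d0 d1 => ?_⟩
  obtain ⟨y, hy, h7⟩ := h6 j q a b d d0 (d1.trans (min_le_left _ _))
  refine ⟨y, hy, fun s => le_trans ?_ (EReal.coe_le_coe_iff.1 (h7.trans (lim_le_real h3 s y)))⟩
  have h8 := Real.log_nonpos d0.le (d1.trans (min_le_right _ _))
  have h9 : 2 * (n : ℝ) / (2 * n + 1) ≤ 1 := (div_le_one ht).2 (by linarith)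
  nlinarith

end Crest.Agent.X261.GrL
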